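import Vale.Agent.P231.Final.Defs

/-! P231, block N: the numbers of the complex projective case. -/

set_option maxSynthPendingDepth 3

open MeasureTheory
open scoped ENNReal

namespace Vale.Agent.P231.WN

noncomputable section

/-- volume of the unit sphere of dimension `2 n - 1` in the Gamma form -/
theorem sphere_vol {n : ℕ} (hn : 1 ≤ n) :
    2 * √Real.pi ^ (2 * n) / Real.Gamma n = 2 * Real.pi ^ n / ((n - 1).factorial : ℝ) := by
  obtain ⟨m, rfl⟩ : ∃ m, n = m + 1 := ⟨n - 1, by omega⟩
  have h1 : √Real.pi ^ (2 * (m + 1)) = Real.pi ^ (m + 1) := by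
    rw [pow_mul, Real.sq_sqrt Real.pi_pos.le]
  rw [h1]
  have h2 : Real.Gamma ((m + 1 : ℕ) : ℝ) = (m.factorial : ℝ) := by
    push_cast
    exact Real.Gamma_nat_eq_factorial m
  rw [h2]
  simp

theorem integral_sin_pow_cos {n : ℕ} (hn : 1 ≤ n) {D : ℝ} (hD : 0 < D) :
    ∫ r in (0 : ℝ)..D, (2 * D / Real.pi * Real.sin (Real.pi * r / (2 * D))) ^ (2 * n - 1) *
      Real.cos (Real.pi * r / (2 * D)) ^ 1 = (2 * D / Real.pi) ^ (2 * n) / (2 * n) := by
  have hpi := Real.pi_pos
  have hn' : (0 : ℝ) < n := by exact_mod_cast hn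
  have key : ∀ r : ℝ, HasDerivAt
      (fun r : ℝ => (2 * D / Real.pi * Real.sin (Real.pi * r / (2 * D))) ^ (2 * n) / (2 * n))
      ((2 * D / Real.pi * Real.sin (Real.pi * r / (2 * D))) ^ (2 * n - 1) *
        Real.cos (Real.pi * r / (2 * D)) ^ 1) r := by
    intro r
    have h1 : HasDerivAt (fun r : ℝ => Real.pi * r / (2 * D)) (Real.pi / (2 * D)) r := by
      have := ((hasDerivAt_id r).const_mul Real.pi).div_const (2 * D)
      simpa using this
    have h2 := (h1.sin.const_mul (2 * D / Real.pi)).pow (2 * n)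
    have h3 := h2.div_const (2 * (n : ℝ))
    refine h3.congr_deriv ?_
    push_cast
    field_simp
  have hcont : Continuous (fun r : ℝ =>
      (2 * D / Real.pi * Real.sin (Real.pi * r / (2 * D))) ^ (2 * n - 1) *
        Real.cos (Real.pi * r / (2 * D)) ^ 1) := by fun_prop
  rw [intervalIntegral.integral_eq_sub_of_hasDerivAt (fun r _ => key r)
    (hcont.intervalIntegrable _ _)]
  have h4 : Real.pi * D / (2 * D) = Real.pi / 2 := by field_simp
  rw [h4, Real.sin_pi_div_two]
  have h5 : (2 * n) ≠ 0 := by omega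
  simp [h5]

/-- `2 n (2 n)`-type factorial identity. -/
theorem fact_id {n : ℕ} (hn : 1 ≤ n) :
    ((Nat.choose (2 * n) n : ℕ) : ℝ) * (n.factorial : ℝ) * (n - 1).factorial =
      2 * ((2 * n - 1).factorial : ℝ) := by
  obtain ⟨m, rfl⟩ : ∃ m, n = m + 1 := ⟨n - 1, by omega⟩
  have h1 : Nat.choose (2 * (m + 1)) (m + 1) * (m + 1).factorial * (m + 1).factorial =
      (2 * (m + 1)).factorial := by
    have := Nat.choose_mul_factorial_mul_factorial (n := 2 * (m + 1)) (k := m + 1) (by omega)
    rwa [show 2 * (m + 1) - (m + 1) = m + 1 by omega] at this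
  have h2 : (2 * (m + 1)).factorial = (2 * (m + 1)) * (2 * (m + 1) - 1).factorial := by
    rw [show 2 * (m + 1) = (2 * (m + 1) - 1) + 1 by omega, Nat.factorial_succ]
    simp
  have h3 : (m + 1).factorial = (m + 1) * m.factorial := Nat.factorial_succ m
  have h4 : (m + 1) * (Nat.choose (2 * (m + 1)) (m + 1) * (m + 1).factorial * m.factorial) =
      (m + 1) * (2 * (2 * (m + 1) - 1).factorial) := by
    calc _ = Nat.choose (2 * (m + 1)) (m + 1) * (m + 1).factorial * ((m + 1) * m.factorial) := by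
          ring
      _ = (2 * (m + 1)) * (2 * (m + 1) - 1).factorial := by rw [← h3, h1, h2]
      _ = _ := by ring
  have h5 := Nat.eq_of_mul_eq_mul_left (Nat.succ_pos m) h4
  have h6 : m + 1 - 1 = m := by omega
  rw [h6]
  exact_mod_cast h5

/-- **Block N.** The constant of the contact-volume argument is the volume of the model. -/
theorem number {n : ℕ} (hn : 1 ≤ n) {D : ℝ} (hD : 0 < D) :
    ((Nat.choose (2 * n) n : ℕ) : ℝ) * (2 * D) ^ (2 * n) /
      (((2 * n - 1).factorial : ℝ) * (2 * √Real.pi ^ (2 * n) / Real.Gamma n)) =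
      Blaschke.modelVolume (2 * n - 1) 1 D := by
  have hpi := Real.pi_pos
  have hn' : (0 : ℝ) < n := by exact_mod_cast hn
  unfold Blaschke.modelVolume
  rw [integral_sin_pow_cos hn hD]
  have h1 : 2 * n - 1 + 1 = 2 * n := by omega
  have h2 : (((2 * n - 1 : ℕ) : ℝ) + 1) / 2 = n := by
    have : (((2 * n - 1 : ℕ) : ℝ) + 1) = ((2 * n - 1 + 1 : ℕ) : ℝ) := by push_cast; ring
    rw [this, h1]; push_cast; ring
  rw [h1, h2, sphere_vol hn]
  have h3 := fact_id hn
  have h4 : (0 : ℝ) < (2 * n - 1).factorial := by exact_mod_cast Nat.factorial_pos _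
  have h5 : (0 : ℝ) < (n - 1).factorial := by exact_mod_cast Nat.factorial_pos _
  have h6 : (n.factorial : ℝ) = n * (n - 1).factorial := by
    obtain ⟨m, rfl⟩ : ∃ m, n = m + 1 := ⟨n - 1, by omega⟩
    rw [Nat.factorial_succ]; push_cast; simp
  rw [h6] at h3
  rw [div_pow]
  have h7 : Real.pi ^ (2 * n) = Real.pi ^ n * Real.pi ^ n := by rw [two_mul, pow_add]
  rw [h7]
  have h8 : (0 : ℝ) < Real.pi ^ n := by positivity
  have h9 : (0 : ℝ) < (2 * D) ^ (2 * n) := by positivity
  generalize (2 * D) ^ (2 * n) = X at *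
  generalize Real.pi ^ n = P at *
  generalize ((2 * n - 1).factorial : ℝ) = F at *
  generalize ((n - 1).factorial : ℝ) = G at *
  generalize ((Nat.choose (2 * n) n : ℕ) : ℝ) = C at *
  have h10 : C * (n * G) * G * (X * P) = 2 * F * (X * P) := by rw [h3]
  field_simp
  nlinarith [h10]

/-- The same with the sphere volume `2 π^n / (n-1)!`. -/
theorem number' {n : ℕ} (hn : 1 ≤ n) {D : ℝ} (hD : 0 < D) :
    ((Nat.choose (2 * n) n : ℕ) : ℝ) * (2 * D) ^ (2 * n) /
      (((2 * n - 1).factorial : ℝ) * (2 * Real.pi ^ n / ((n - 1).factorial : ℝ))) =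
      Blaschke.modelVolume (2 * n - 1) 1 D := by
  rw [← sphere_vol hn]
  exact number hn hD

/-- closed form of the model volume -/
theorem model_closed {n : ℕ} (hn : 1 ≤ n) {D : ℝ} (hD : 0 < D) :
    Blaschke.modelVolume (2 * n - 1) 1 D = (2 * D) ^ (2 * n) / (Real.pi ^ n * n.factorial) := by
  rw [← number' hn hD]
  have hpi := Real.pi_pos
  have h3 := fact_id hn
  have h4 : (0 : ℝ) < (2 * n - 1).factorial := by exact_mod_cast Nat.factorial_pos _
  have h5 : (0 : ℝ) < (n - 1).factorial := by exact_mod_cast Nat.factorial_pos _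
  have h6 : (0 : ℝ) < n.factorial := by exact_mod_cast Nat.factorial_pos _
  have h8 : (0 : ℝ) < Real.pi ^ n := by positivity
  rw [div_eq_div_iff (by positivity) (by positivity)]
  field_simp
  generalize (2 * D) ^ (2 * n) = X at *
  generalize Real.pi ^ n = P at *
  generalize ((2 * n - 1).factorial : ℝ) = F at *
  generalize ((n - 1).factorial : ℝ) = G at *
  generalize (n.factorial : ℝ) = H at *
  generalize ((Nat.choose (2 * n) n : ℕ) : ℝ) = C at *
  nlinarith [h3]

end

end Vale.Agent.P231.WN
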